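import Mathlib
import Crest.Agent.Helper30.AUCBasic
import Crest.Agent.Helper27.Block
import Crest.Agent.Helper27.BlockTree

/-!
Row 125 / S0166, package [G4] (a) + (b) (helper7): the `ℓ²`-sum `lp G 2` of a sequence of
separable normed spaces is separable, and it is not finite-dimensional as soon as every summand
is nonzero.  Instantiated for helper27's blocks `Blk n`.
-/

set_option autoImplicit false

namespace Crest.Agent.Helper7

open Crest.Agent.Helper30 TopologicalSpace

/-- (a) the `ℓ²`-sum of countably many separable spaces is separable. -/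
theorem separableSpace_lp_two (G : ℕ → Type) [∀ n, NormedAddCommGroup (G n)]
    [∀ n, NormedSpace ℝ (G n)] [∀ n, SeparableSpace (G n)] : SeparableSpace (lp G 2) := by
  rw [← isSeparable_univ_iff]
  have h1 : ∀ n, IsSeparable (Set.range (lp.single (E := G) 2 n)) := fun n =>
    isSeparable_range (lp.isometry_single (E := G) (p := 2) n).continuous
  have h2 : IsSeparable (⋃ n, Set.range (lp.single (E := G) 2 n)) := IsSeparable.iUnion h1
  have h3 := (h2.span (R := ℝ)).closure
  refine h3.mono ?_
  intro f _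
  have hs := lp.hasSum_single (p := 2) (by norm_num) f
  refine mem_closure_of_tendsto hs (Filter.Eventually.of_forall (fun s => ?_))
  refine Submodule.sum_mem _ (fun i _ => Submodule.subset_span ?_)
  exact Set.mem_iUnion.mpr ⟨i, ⟨f i, rfl⟩⟩

/-- (b) the `ℓ²`-sum of a sequence of nonzero spaces is not finite-dimensional. -/
theorem not_finiteDimensional_lp_two (G : ℕ → Type) [∀ n, NormedAddCommGroup (G n)]
    [∀ n, NormedSpace ℝ (G n)] (h : ∀ n, ∃ x : G n, x ≠ 0) : ¬ FiniteDimensional ℝ (lp G 2) := by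
  classical
  choose x hx using h
  obtain ⟨u, hu⟩ : ∃ u : ∀ n, G n, ∀ n, ‖u n‖ = 1 := by
    refine ⟨fun n => (1 / ‖x n‖) • x n, fun n => ?_⟩
    have : 0 < ‖x n‖ := norm_pos_iff.mpr (hx n)
    rw [norm_smul, Real.norm_eq_abs, abs_of_pos (by positivity)]
    field_simp
  obtain ⟨w, hwdef⟩ : ∃ w : ℕ → lp G 2, ∀ n, w n = lp.single 2 n (u n) := ⟨_, fun _ => rfl⟩
  have hw : WeaklyNull w := by
    refine weaklyNull_of_sign_sums (C := 1) ?_
    intro A σ hσ
    have h2 : (0 : ℝ) < (2 : ENNReal).toReal := by norm_num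
    have key := lp.norm_sum_single (p := 2) (E := G) h2 (fun k => σ k • u k) A
    have e1 : ∑ k ∈ A, σ k • w k = ∑ k ∈ A, lp.single 2 k (σ k • u k) := by
      refine Finset.sum_congr rfl (fun k _ => ?_)
      rw [hwdef, lp.single_smul]
    have e2 : (2 : ENNReal).toReal = 2 := by norm_num
    rw [e2] at key
    rw [e1, ← Real.rpow_two, key]
    have e3 : ∑ k ∈ A, ‖σ k • u k‖ ^ (2 : ℝ) = ∑ k ∈ A, (1 : ℝ) := by
      refine Finset.sum_congr rfl (fun k _ => ?_)
      rw [norm_smul, hu, mul_one, Real.norm_eq_abs]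
      rcases hσ k with h | h <;> rw [h] <;> simp
    rw [e3]
    simp
  refine not_finiteDimensional_of_weaklyNull hw (κ := 1) one_pos (fun k => ?_)
  rw [hwdef, lp.norm_single (by norm_num), hu]

open Crest.Agent.Helper27 in
/-- (a) for the S0166 witness -/
theorem separableSpace_lp_blk : SeparableSpace (lp (fun n : ℕ => Blk n) 2) :=
  separableSpace_lp_two (fun n : ℕ => Blk n)

open Crest.Agent.Helper27 in
/-- (b) for the S0166 witness -/
theorem not_finiteDimensional_lp_blk : ¬ FiniteDimensional ℝ (lp (fun n : ℕ => Blk n) 2) := by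
  refine not_finiteDimensional_lp_two (fun n : ℕ => Blk n) (fun n => ⟨e n [], ?_⟩)
  intro h0
  have h1 : ‖e n []‖ = 1 := norm_e (by simp)
  rw [h0, norm_zero] at h1
  exact zero_ne_one h1

end Crest.Agent.Helper7
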